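import Vale.Agent.P327T.Rec
import Vale.Agent.P327.Defs

/-! A set recursive in `B` is computed by an oracle Turing machine with oracle `B`. -/

namespace Vale.Agent.P327T

open Function Filter Vale.Agent.P327

variable {A B : Set ℕ}

theorem charFn_eq (A : Set ℕ) : charFn A = fun n => Part.some (chi A n) := rfl

theorem C.bin' {ι : Type} {g : ℕ → ℕ → Part ℕ} (hg : C B fun x : Bool → ℕ => g (x false) (x true))
    {F F' : (ι → ℕ) →. ℕ} (h : C B F) (h' : C B F') :
    C B fun x => (F x).bind fun a => (F' x).bind fun b => g a b :=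
  h.lett ((h'.ren some).lett (C.ren hg fun b => cond b none (some none)))

theorem bind_some' (a : ℕ) (f : ℕ →. ℕ) : (Part.some a).bind f = f a := Part.bind_some a f

theorem U.of_rec {f : ℕ →. ℕ} (h : Nat.RecursiveIn {charFn B} f) : U B f := by
  induction h with
  | zero => exact C.zero
  | succ => exact (T.var ()).succ
  | left => exact T.left ()
  | right => exact T.right ()
  | oracle g hg =>
    rw [Set.mem_singleton_iff.1 hg]
    exact (C.var ()).orc
  | pair _ _ hf hh =>
    exact (C.bin T₂.pair hf hh).mono fun x v hv => by simpa [Seq.seq, eq_comm] using hv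
  | comp _ _ hf hh => exact hf.app hh
  | @prec f h _ _ hf hh =>
    have h1 := C.prec (hf.app (C.var false)) (hh.app (T.bin T₂.pair (T.var (some (some false)))
      (T.bin T₂.pair (T.var (some none)) (T.var none)))) true
    refine (C.bin' (g := fun a n => precP (f a) (fun y v => h (Nat.pair a (Nat.pair y v))) n)
      (h1.mono fun x v hv => ?_) (T.left ()) (T.right ())).mono fun x v hv => ?_
    · simpa only [bind_some', Option.elim_some, Option.elim_none] using hv
    · simpa [precP] using hv
  | rfind _ hf =>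
    exact (C.mu (hf.app (T.bin T₂.pair (T.var (some ())) (T.var none)))).mono fun x v hv => by
      simp only [bind_some', Option.elim_some, Option.elim_none]
      exact hv

theorem At.clearAll {k : ℕ} : ∀ r ≤ k,
    At B k fun σ τ => τ = fun l => if 1 ≤ l ∧ l ≤ r then 0 else σ l := by
  intro r
  induction r with
  | zero =>
    refine fun _ => At.skip.mono fun σ τ h => ?_
    rw [h]
    funext l
    rw [if_neg (by omega)]
  | succ r ih =>
    refine fun hr => ((ih (by omega)).seq (At.clear hr)).mono fun σ τ h => ⟨_, rfl, ?_⟩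
    rw [h]
    funext l
    rw [update_apply]
    split_ifs <;> first | rfl | omega

theorem tp_single (k : ℕ) {σ : St} (h : ∀ l, 1 ≤ l → l ≤ k → σ l = 0) (z : ℤ) :
    tp k σ z = decide (0 ≤ z ∧ z < σ 0) := by
  unfold tp
  apply decide_eq_decide.2
  constructor
  · rintro ⟨j, hj, i, hi, rfl⟩
    obtain rfl : j = 0 := by
      by_contra e
      rw [h j (by omega) hj] at hi
      omega
    simpa [cell] using hi
  · rintro ⟨h1, h2⟩
    exact ⟨0, Nat.zero_le _, z.toNat, by omega, by simp [cell, h1]⟩

theorem tred_of_rec (h : TuringReducible (charFn A) (charFn B)) : TRed A B := by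
  obtain ⟨R, h1, h2⟩ := (U.of_rec (RecursiveIn.iff_nat.1 h)).app (T.var ()).pred
    (fun _ => 0) 1 one_pos fun _ => one_pos
  obtain ⟨k, h3, hk⟩ := (h1.and (eventually_ge_atTop 1)).exists
  obtain ⟨g, hg⟩ := h3.seq ((At.mv hk (Nat.zero_le k) one_ne_zero).seq (At.clearAll k le_rfl))
  obtain ⟨M, hM⟩ := g.exists_otm (B := B)
  refine ⟨M, fun n => ?_⟩
  obtain ⟨τ, h4, h5, -⟩ := h2 (update 0 0 (n + 1)) (chi A n) (by simp [charFn_eq])
  obtain ⟨s, h6, h7⟩ := hM _ _ (hg _ _ ⟨τ, h4, _, rfl, rfl⟩)
  have h8 : M.init n = ⟨some M.start, tp k (update 0 0 (n + 1)), 0⟩ := by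
    unfold OTM.init
    congr 1
    funext z
    rw [tp_single k fun l hl _ => by rw [update_of_ne (by omega)]; rfl]
    apply decide_eq_decide.2
    simp only [update_self]
    omega
  refine ⟨s, h8 ▸ h6, ?_⟩
  rw [h8, h7]
  have h9 := tp_single k (σ := fun l => if 1 ≤ l ∧ l ≤ k then 0 else
    update (update τ 0 (τ 1)) 1 0 l) fun l hl hl' => if_pos ⟨hl, hl'⟩
  simp only [h9]
  by_cases hn : n ∈ A
  · have : chi A n = 1 := by simp [chi, hn]
    rw [this] at h5 ⊢
    rw [Nat.cast_one, ← Set.encard_singleton (0 : ℤ)]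
    congr 1
    ext z
    simp [h5]
    omega
  · have : chi A n = 0 := by simp [chi, hn]
    rw [this] at h5 ⊢
    rw [Nat.cast_zero, Set.encard_eq_zero]
    ext z
    simp [h5]

end Vale.Agent.P327T
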