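import Mathlib.Data.Set.Card
import Mathlib.Logic.Function.Iterate

/-!
# Oracle Turing machines and Turing degrees (P327)

The machine model is the one of Soare's book *Recursively enumerable sets and degrees*, III.1.1:
a two-way infinite work tape over the alphabet {blank, 1}, a read-only oracle tape over
{blank, 0, 1} carrying the characteristic function of the oracle, and one head that moves along
both tapes at once.
-/

namespace Vale.Agent.P327T

/-- An oracle Turing machine: a finite set `Q` of non-halting states, an initial state, and a
program. In state `q`, reading `o` on the oracle tape (`none` = blank, `some false` = 0,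
`some true` = 1) and `a` on the work tape (`false` = blank, `true` = 1), the machine passes to the
state `(δ q o a).1` (`none` is the halting state), prints `(δ q o a).2.1` on the work tape and moves
its head one cell to the right (`(δ q o a).2.2 = true`) or to the left (`false`). -/
structure OTM where
  Q : Type
  fin : Finite Q
  start : Q
  δ : Q → Option Bool → Bool → Option Q × Bool × Bool

open Classical in
/-- The oracle tape of the set `B`: cell `n ≥ 0` holds 1 if `n ∈ B` and 0 if not; the cells to the
left of cell 0 are blank. -/
noncomputable def oracleTape (B : Set ℕ) (z : ℤ) : Option Bool :=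
  if 0 ≤ z then some (decide (z.toNat ∈ B)) else none

/-- A configuration: the state (`none` = halted), the work tape, and the position of the head. -/
structure Cfg (Q : Type) where
  state : Option Q
  tape : ℤ → Bool
  head : ℤ

/-- One step of the machine `M` with oracle `B`; a halted configuration does not change. -/
noncomputable def OTM.step (M : OTM) (B : Set ℕ) (c : Cfg M.Q) : Cfg M.Q :=
  match c.state with
  | none => c
  | some q =>
    ⟨(M.δ q (oracleTape B c.head) (c.tape c.head)).1,
      Function.update c.tape c.head (M.δ q (oracleTape B c.head) (c.tape c.head)).2.1,
      if (M.δ q (oracleTape B c.head) (c.tape c.head)).2.2 then c.head + 1 else c.head - 1⟩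

/-- The initial configuration on input `n`: the work tape holds `n + 1` ones, in the cells
`0, …, n`, and is blank elsewhere; the head scans cell 0. -/
def OTM.init (M : OTM) (n : ℕ) : Cfg M.Q :=
  ⟨some M.start, fun z => decide (0 ≤ z ∧ z ≤ n), 0⟩

/-- `M` with oracle `B` computes the total function `f`: on every input `n` it halts, and the
number of ones then on the work tape is `f n`. -/
def OTM.Computes (M : OTM) (B : Set ℕ) (f : ℕ → ℕ) : Prop :=
  ∀ n : ℕ, ∃ s : ℕ, ((M.step B)^[s] (M.init n)).state = none ∧
    {z : ℤ | ((M.step B)^[s] (M.init n)).tape z = true}.encard = (f n : ℕ∞)

open Classical in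
/-- The characteristic function of `A`. -/
noncomputable def chi (A : Set ℕ) (n : ℕ) : ℕ := if n ∈ A then 1 else 0

/-- `A ≤_T B`: some oracle Turing machine with oracle `B` computes the characteristic function
of `A`. -/
def TRed (A B : Set ℕ) : Prop := ∃ M : OTM, M.Computes B (chi A)

/-- The sets Turing equivalent to `A`. -/
def degOf (A : Set ℕ) : Set (Set ℕ) := {X | TRed X A ∧ TRed A X}

/-- The Turing degrees: the Turing equivalence classes of the subsets of `ℕ`. -/
def Degree : Type := {d : Set (Set ℕ) // ∃ A, d = degOf A}

/-- `a ≤_T b` for degrees: some member of `a` is Turing reducible to some member of `b`. -/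
def DLe (a b : Degree) : Prop := ∃ A ∈ a.1, ∃ B ∈ b.1, TRed A B

end Vale.Agent.P327T
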