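import Vale.Agent.P327T.Sim
import Vale.Agent.P327.H390.Main

/-! The degrees defined by oracle machines are the degrees `TDeg`; transfer of rigidity. -/

namespace Vale.Agent.P327T

open Vale.Agent.P327

theorem tred_refl (A : Set ℕ) : TRed A A := tred_iff.2 (TuringReducible.refl _)

theorem tred_trans {A B C : Set ℕ} (h : TRed A B) (h' : TRed B C) : TRed A C :=
  tred_iff.2 ((tred_iff.1 h).trans (tred_iff.1 h'))

theorem degOf_eq {A B : Set ℕ} (h : TRed A B) (h' : TRed B A) : degOf A = degOf B :=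
  Set.ext fun _ => ⟨fun hX => ⟨tred_trans hX.1 h, tred_trans h' hX.2⟩,
    fun hX => ⟨tred_trans hX.1 h', tred_trans h hX.2⟩⟩

theorem dle_iff {a b : Degree} {A B : Set ℕ} (hA : A ∈ a.1) (hB : B ∈ b.1) :
    DLe a b ↔ TRed A B := by
  refine ⟨?_, fun h => ⟨A, hA, B, hB, h⟩⟩
  rintro ⟨A', hA', B', hB', h⟩
  obtain ⟨a, A₀, rfl⟩ := a
  obtain ⟨b, B₀, rfl⟩ := b
  exact tred_trans (tred_trans hA.1 hA'.2) (tred_trans h (tred_trans hB'.1 hB.2))

/-- The machine degree of an element of `TDeg`. -/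
def toDeg : TDeg → Degree :=
  Quotient.lift (fun A : SetN => (⟨degOf A.carrier, A.carrier, rfl⟩ : Degree))
    fun _ _ h => Subtype.ext (degOf_eq (tred_iff.2 h.1) (tred_iff.2 h.2))

theorem dle_toDeg (a b : TDeg) : DLe (toDeg a) (toDeg b) ↔ a ≤ b := by
  induction a using Quotient.ind with | _ A => ?_
  induction b using Quotient.ind with | _ B => ?_
  exact (dle_iff (a := ⟨degOf A.carrier, A.carrier, rfl⟩) (b := ⟨degOf B.carrier, B.carrier, rfl⟩)
    (A := A.carrier) (B := B.carrier) ⟨tred_refl _, tred_refl _⟩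
    ⟨tred_refl _, tred_refl _⟩).trans tred_iff

theorem dle_refl (a : Degree) : DLe a a := by
  obtain ⟨a, A, rfl⟩ := a
  exact ⟨A, ⟨tred_refl _, tred_refl _⟩, A, ⟨tred_refl _, tred_refl _⟩, tred_refl _⟩

theorem toDeg_bijective : Function.Bijective toDeg := by
  refine ⟨fun a b h => le_antisymm ?_ ?_, ?_⟩
  · rw [← dle_toDeg, h]
    exact dle_refl _
  · rw [← dle_toDeg, h]
    exact dle_refl _
  · rintro ⟨a, A, rfl⟩
    exact ⟨Quotient.mk _ ⟨A⟩, rfl⟩

theorem final_rigid {U V : Set Degree} (hU : ∀ a ∈ U, ∀ b, DLe a b → b ∈ U)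
    (hV : ∀ a ∈ V, ∀ b, DLe a b → b ∈ V) (e : U → V) (he : Function.Bijective e)
    (hle : ∀ x y : U, DLe x y ↔ DLe (e x) (e y)) : U = V ∧ ∀ x : U, (e x : Degree) = x := by
  let ψ := Equiv.ofBijective toDeg toDeg_bijective
  let ψU : (toDeg ⁻¹' U) ≃ U := ψ.subtypeEquiv fun _ => Iff.rfl
  let ψV : (toDeg ⁻¹' V) ≃ V := ψ.subtypeEquiv fun _ => Iff.rfl
  let e₀ := ψU.trans ((Equiv.ofBijective e he).trans ψV.symm)
  have h0 : ∀ x, toDeg (e₀ x) = e (ψU x) := fun x =>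
    congrArg Subtype.val (ψV.apply_symm_apply (e (ψU x)))
  let e' : (toDeg ⁻¹' U) ≃o (toDeg ⁻¹' V) :=
    ⟨e₀, fun {x y} => by
      rw [← Subtype.coe_le_coe, ← Subtype.coe_le_coe, ← dle_toDeg, ← dle_toDeg, h0, h0, ← hle]
      rfl⟩
  obtain ⟨h1, h2⟩ := upper_rigid (U := toDeg ⁻¹' U) (V := toDeg ⁻¹' V)
    (fun a b h ha => hU _ ha _ ((dle_toDeg a b).2 h))
    (fun a b h ha => hV _ ha _ ((dle_toDeg a b).2 h)) e'
  refine ⟨toDeg_bijective.2.preimage_injective h1, fun x => ?_⟩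
  obtain ⟨y, rfl⟩ := ψU.surjective x
  rw [← h0]
  exact congrArg toDeg (h2 y)

theorem rigid (π : Degree → Degree) (hπ : Function.Bijective π)
    (hle : ∀ a b, DLe a b ↔ DLe (π a) (π b)) (a : Degree) : π a = a :=
  (final_rigid (U := Set.univ) (V := Set.univ) (fun _ _ _ _ => trivial) (fun _ _ _ _ => trivial)
    (fun x => ⟨π x, trivial⟩)
    ⟨fun _ _ h => Subtype.ext (hπ.1 (congrArg Subtype.val h)), fun y =>
      let ⟨x, hx⟩ := hπ.2 y; ⟨⟨x, trivial⟩, Subtype.ext hx⟩⟩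
    (fun x y => hle x y)).2 ⟨a, trivial⟩

end Vale.Agent.P327T
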