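import Vale.Agent.P327T.Defs
import Mathlib.Tactic

/-! Machines with several exits and bounded jumps, and their simulation by oracle machines. -/

namespace Vale.Agent.P327T

open Sum

/-- Machines with exits in `E` whose head may jump. -/
structure G (E : Type) where
  Q : Type
  fin : Finite Q
  start : Q
  δ : Q → Option Bool → Bool → (Q ⊕ E) × Bool × ℤ

/-- Tape and head. -/
abbrev Tp := (ℤ → Bool) × ℤ

variable (B : Set ℕ) {E E' : Type}

/-- The effect of an action on the tape. -/
noncomputable def act (c : Tp) (r : Bool × ℤ) : Tp := (Function.update c.1 c.2 r.1, c.2 + r.2)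

/-- From state `q` and tape `c` the machine leaves through `e` with tape `c'`. -/
inductive G.Run (g : G E) : g.Q → Tp → E → Tp → Prop
  | last (q c e) : (g.δ q (oracleTape B c.2) (c.1 c.2)).1 = inr e →
      G.Run g q c e (act c (g.δ q (oracleTape B c.2) (c.1 c.2)).2)
  | more (q c q' e c') : (g.δ q (oracleTape B c.2) (c.1 c.2)).1 = inl q' →
      G.Run g q' (act c (g.δ q (oracleTape B c.2) (c.1 c.2)).2) e c' → G.Run g q c e c'

/-- A run from the initial state. -/
def G.Ex (g : G E) (c : Tp) (e : E) (c' : Tp) : Prop := g.Run B g.start c e c'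

/-- One-step machines. -/
def G.one (f : Option Bool → Bool → E × Bool × ℤ) : G E :=
  ⟨Unit, inferInstance, (), fun _ o a => (inr (f o a).1, (f o a).2)⟩

/-- Sequential composition. -/
def G.bind [Finite E] (M : G E) (N : E → G E') : G E' where
  Q := M.Q ⊕ (Σ e, (N e).Q)
  fin := by
    haveI := M.fin
    haveI := fun e => (N e).fin
    infer_instance
  start := inl M.start
  δ := fun q o a => match q with
    | inl q => ((M.δ q o a).1.elim (fun q' => inl (inl q'))
        (fun e => inl (inr ⟨e, (N e).start⟩)), (M.δ q o a).2)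
    | inr ⟨e, q⟩ => (((N e).δ q o a).1.elim (fun q' => inl (inr ⟨e, q'⟩)) inr, ((N e).δ q o a).2)

/-- Iteration: the exit `none` restarts the machine. -/
def G.loop (M : G (Option E)) : G E where
  Q := M.Q
  fin := M.fin
  start := M.start
  δ := fun q o a => ((M.δ q o a).1.elim inl (fun x => x.elim (inl M.start) inr), (M.δ q o a).2)

variable {B}

theorem G.ex_one (f : Option Bool → Bool → E × Bool × ℤ) (c : Tp) {e : E} {c' : Tp}
    (he : (f (oracleTape B c.2) (c.1 c.2)).1 = e)
    (hc : act c (f (oracleTape B c.2) (c.1 c.2)).2 = c') : (G.one f).Ex B c e c' := by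
  subst he hc
  exact G.Run.last (g := G.one f) () c _ rfl

theorem G.run_bind_r [Finite E] {M : G E} {N : E → G E'} {e : E} {q c e' c'}
    (h : (N e).Run B q c e' c') : (M.bind N).Run B (inr ⟨e, q⟩) c e' c' := by
  induction h with
  | last q c e' h =>
    refine G.Run.last (g := M.bind N) (inr ⟨e, q⟩) c e' ?_
    simp only [G.bind, h, Sum.elim_inr]
  | more q c q' e' c' h _ ih =>
    refine G.Run.more (g := M.bind N) (inr ⟨e, q⟩) c (inr ⟨e, q'⟩) e' c' ?_ ih
    simp only [G.bind, h, Sum.elim_inl]

theorem G.ex_bind [Finite E] {M : G E} {N : E → G E'} {e : E} {c c' e' c''}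
    (h : M.Ex B c e c') (h' : (N e).Ex B c' e' c'') : (M.bind N).Ex B c e' c'' := by
  unfold G.Ex at h ⊢
  change (M.bind N).Run B (inl M.start) c e' c''
  generalize M.start = q at h
  induction h with
  | last q c e h =>
    refine G.Run.more (g := M.bind N) (inl q) c (inr ⟨e, (N e).start⟩) e' c'' ?_
      (G.run_bind_r h')
    simp only [G.bind, h, Sum.elim_inr]
  | more q c q' e c' h _ ih =>
    refine G.Run.more (g := M.bind N) (inl q) c (inl q') e' c'' ?_ (ih h')
    simp only [G.bind, h, Sum.elim_inl]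

theorem G.ex_loop_done {M : G (Option E)} {c e c'} (h : M.Ex B c (some e) c') :
    M.loop.Ex B c e c' := by
  unfold G.Ex at h ⊢
  change M.loop.Run B M.start c e c'
  generalize M.start = q at h
  generalize hx : some e = x at h
  induction h with
  | last q c x h =>
    subst hx
    refine G.Run.last (g := M.loop) q c e ?_
    simp only [G.loop, h, Sum.elim_inr, Option.elim_some]
  | more q c q' x c' h _ ih =>
    refine G.Run.more (g := M.loop) q c q' e c' ?_ (ih hx)
    simp only [G.loop, h, Sum.elim_inl]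

theorem G.ex_loop_again {M : G (Option E)} {c c' e c''} (h : M.Ex B c none c')
    (h' : M.loop.Ex B c' e c'') : M.loop.Ex B c e c'' := by
  unfold G.Ex at h ⊢
  change M.loop.Run B M.start c e c''
  generalize M.start = q at h
  generalize hx : (none : Option E) = x at h
  induction h with
  | last q c x h =>
    subst hx
    refine G.Run.more (g := M.loop) q c M.start e c'' ?_ h'
    simp only [G.loop, h, Sum.elim_inr, Option.elim_none]
  | more q c q' x c' h _ ih =>
    refine G.Run.more (g := M.loop) q c q' e c'' ?_ (ih h' hx)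
    simp only [G.loop, h, Sum.elim_inl]

/-- The oracle machine simulating a jump machine; the second component of the state is the
part of the last jump still to be made. -/
def G.toOTM (g : G Unit) (D : ℤ) (hD : -D ≤ D) : OTM where
  Q := g.Q × Set.Icc (-D) D
  fin := by
    haveI := g.fin
    infer_instance
  start := (g.start, Set.projIcc (-D) D hD 0)
  δ := fun q o a =>
    if (q.2 : ℤ) = 0 then
      ((g.δ q.1 o a).1.elim
        (fun q' => some (q', Set.projIcc (-D) D hD ((g.δ q.1 o a).2.2 - 1))) (fun _ => none),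
        (g.δ q.1 o a).2.1, true)
    else if 0 < (q.2 : ℤ) then (some (q.1, Set.projIcc (-D) D hD (q.2 - 1)), a, true)
    else (some (q.1, Set.projIcc (-D) D hD (q.2 + 1)), a, false)

theorem G.walk (g : G Unit) (D : ℤ) (hD : -D ≤ D) (q : g.Q) (t : ℤ → Bool) :
    ∀ (n : ℕ) (r p : ℤ), r.natAbs = n → -D ≤ r → r ≤ D →
    ∃ s, ((g.toOTM D hD).step B)^[s] ⟨some (q, Set.projIcc (-D) D hD r), t, p⟩ =
      ⟨some (q, Set.projIcc (-D) D hD 0), t, p + r⟩ := by
  intro n
  induction n with
  | zero =>
    intro r p hr _ _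
    obtain rfl : r = 0 := by omega
    exact ⟨0, by simp⟩
  | succ n ih =>
    intro r p hr h1 h2
    have hc : ((Set.projIcc (-D) D hD r : Set.Icc (-D) D) : ℤ) = r := by
      rw [Set.projIcc_of_mem hD ⟨h1, h2⟩]
    by_cases hp : 0 < r
    · obtain ⟨s, hs⟩ := ih (r - 1) (p + 1) (by omega) (by omega) (by omega)
      refine ⟨s + 1, ?_⟩
      rw [Function.iterate_succ_apply]
      have : (g.toOTM D hD).step B ⟨some (q, Set.projIcc (-D) D hD r), t, p⟩ =
          ⟨some (q, Set.projIcc (-D) D hD (r - 1)), t, p + 1⟩ := by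
        simp only [OTM.step, G.toOTM, hc, if_neg hp.ne', if_pos hp, Function.update_eq_self,
          if_true]
      rw [this, hs]
      congr 1
      ring
    · obtain ⟨s, hs⟩ := ih (r + 1) (p - 1) (by omega) (by omega) (by omega)
      refine ⟨s + 1, ?_⟩
      rw [Function.iterate_succ_apply]
      have h0 : r ≠ 0 := by omega
      have : (g.toOTM D hD).step B ⟨some (q, Set.projIcc (-D) D hD r), t, p⟩ =
          ⟨some (q, Set.projIcc (-D) D hD (r + 1)), t, p - 1⟩ := by
        simp only [OTM.step, G.toOTM, hc, if_neg h0, if_neg hp, Function.update_eq_self,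
          Bool.false_eq_true, if_false]
      rw [this, hs]
      congr 1
      ring

theorem G.exists_otm (g : G Unit) : ∃ M : OTM, ∀ c c' : Tp, g.Ex B c () c' →
    ∃ s, ((M.step B)^[s] ⟨some M.start, c.1, c.2⟩).state = none ∧
      ((M.step B)^[s] ⟨some M.start, c.1, c.2⟩).tape = c'.1 := by
  haveI := g.fin
  obtain ⟨D, hD⟩ := Finite.exists_le
    (fun x : g.Q × Option Bool × Bool => |(g.δ x.1 x.2.1 x.2.2).2.2 - 1|)
  have h0 : 0 ≤ D := (abs_nonneg _).trans (hD (g.start, none, false))
  have hD' : -D ≤ D := by omega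
  have hc : ((Set.projIcc (-D) D hD' 0 : Set.Icc (-D) D) : ℤ) = 0 := by
    rw [Set.projIcc_of_mem hD' ⟨by omega, h0⟩]
  refine ⟨g.toOTM D hD', fun c c' h => ?_⟩
  unfold G.Ex at h
  change ∃ s, (((g.toOTM D hD').step B)^[s]
      ⟨some (g.start, Set.projIcc (-D) D hD' 0), c.1, c.2⟩).state = none ∧
    (((g.toOTM D hD').step B)^[s]
      ⟨some (g.start, Set.projIcc (-D) D hD' 0), c.1, c.2⟩).tape = c'.1
  generalize g.start = q at h
  generalize () = u at h
  induction h with
  | last q c e h =>
    refine ⟨1, ?_⟩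
    simp only [Function.iterate_one, OTM.step, G.toOTM, hc, if_true, h, Sum.elim_inr, act,
      and_self]
  | more q c q' e c' h _ ih =>
    obtain ⟨s, hs⟩ := ih
    have hb := abs_le.1 (hD (q, oracleTape B c.2, c.1 c.2))
    obtain ⟨s', hs'⟩ := g.walk (B := B) D hD' q'
      (act c (g.δ q (oracleTape B c.2) (c.1 c.2)).2).1 _ _ (c.2 + 1) rfl hb.1 hb.2
    refine ⟨s + s' + 1, ?_⟩
    have h1 : (g.toOTM D hD').step B ⟨some (q, Set.projIcc (-D) D hD' 0), c.1, c.2⟩ =
        ⟨some (q', Set.projIcc (-D) D hD' ((g.δ q (oracleTape B c.2) (c.1 c.2)).2.2 - 1)),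
          (act c (g.δ q (oracleTape B c.2) (c.1 c.2)).2).1, c.2 + 1⟩ := by
      simp only [OTM.step, G.toOTM, hc, if_true, h, Sum.elim_inl, act]
    have h2 : c.2 + 1 + ((g.δ q (oracleTape B c.2) (c.1 c.2)).2.2 - 1) =
        (act c (g.δ q (oracleTape B c.2) (c.1 c.2)).2).2 := by
      simp only [act]
      ring
    rw [Function.iterate_succ_apply, h1, Function.iterate_add_apply, hs', h2]
    exact hs

end Vale.Agent.P327T
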