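import Vale.Agent.P327T.Reg
import Mathlib.Order.Filter.AtTopBot.Basic
import Mathlib.Computability.TuringDegree

/-! Register programs realised by machines. -/

namespace Vale.Agent.P327T

open Function Filter

/-- Register contents. -/
abbrev St := ℕ → ℕ

/-- The relation `R` on register contents is realised by a machine in the layout `k`. -/
def At (B : Set ℕ) (k : ℕ) (R : St → St → Prop) : Prop :=
  ∃ g : G Unit, ∀ σ τ, R σ τ → g.Ex B (tp k σ, 0) () (tp k τ, 0)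

/-- The loop: while register `j` is positive, decrement it and run `R`. -/
inductive Wh (j : ℕ) (R : St → St → Prop) : St → St → Prop
  | zero (σ) : σ j = 0 → Wh j R σ σ
  | succ (σ n σ' τ) : σ j = n + 1 → R (update σ j n) σ' → Wh j R σ' τ → Wh j R σ τ

variable {B : Set ℕ} {k : ℕ} {R S : St → St → Prop}

theorem At.mono (h : At B k R) (hS : ∀ σ τ, S σ τ → R σ τ) : At B k S :=
  let ⟨g, hg⟩ := h; ⟨g, fun σ τ h => hg σ τ (hS σ τ h)⟩

theorem At.skip : At B k Eq :=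
  ⟨G.jump () 0, fun _ _ h => h ▸ G.ex_jump _ _ _ _ (zero_add _)⟩

theorem At.seq (h : At B k R) (h' : At B k S) : At B k (Relation.Comp R S) :=
  let ⟨g, hg⟩ := h; let ⟨g', hg'⟩ := h'
  ⟨g.bind fun _ => g', fun σ τ ⟨ρ, h1, h2⟩ => G.ex_bind (hg σ ρ h1) (hg' ρ τ h2)⟩

theorem At.inc {j : ℕ} (hj : j ≤ k) : At B k fun σ τ => τ = update σ j (σ j + 1) :=
  ⟨G.inc k j, fun σ _ h => h ▸ G.ex_inc hj σ⟩

theorem At.orc {j : ℕ} (hj : j ≤ k) : At B k fun σ τ => τ = update σ j (σ j + chi B (σ 0)) :=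
  ⟨G.orc k j, fun σ _ h => h ▸ G.ex_orc hj σ⟩

theorem At.wh {j : ℕ} (hj : j ≤ k) (h : At B k R) : At B k (Wh j R) := by
  obtain ⟨g, hg⟩ := h
  refine ⟨G.loop ((G.dec k j).bind fun a => cond a (g.bind fun _ => G.jump none 0)
    (G.jump (some ()) 0)), fun σ τ h => ?_⟩
  induction h with
  | zero σ h =>
    exact G.ex_loop_done (G.ex_bind (G.ex_dec_zero hj h) (G.ex_jump _ _ _ _ (zero_add _)))
  | succ σ n σ' τ h h1 _ ih =>
    exact G.ex_loop_again (G.ex_bind (G.ex_dec_succ hj h)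
      (G.ex_bind (hg _ _ h1) (G.ex_jump _ _ _ _ (zero_add _)))) ih

theorem Wh.loop {j : ℕ} (I : ℕ → St → Prop)
    (h : ∀ n σ, I (n + 1) σ → σ j = n + 1 → ∃ σ', R (update σ j n) σ' ∧ σ' j = n ∧ I n σ') :
    ∀ n σ, σ j = n → I n σ → ∃ τ, Wh j R σ τ ∧ τ j = 0 ∧ I 0 τ := by
  intro n
  induction n with
  | zero => exact fun σ h1 h2 => ⟨σ, .zero σ h1, h1, h2⟩
  | succ n ih =>
    intro σ h1 h2
    obtain ⟨σ', h3, h4, h5⟩ := h n σ h2 h1
    obtain ⟨τ, h6, h7⟩ := ih σ' h4 h5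
    exact ⟨τ, .succ σ n σ' τ h1 h3 h6, h7⟩

theorem At.clear {j : ℕ} (hj : j ≤ k) : At B k fun σ τ => τ = update σ j 0 := by
  refine (At.wh hj At.skip).mono fun σ τ h => ?_
  obtain ⟨τ', h1, h2, h3⟩ := Wh.loop (j := j) (R := Eq) (fun n τ => ∀ l ≠ j, τ l = σ l)
    (fun n τ h _ => ⟨_, rfl, update_self .., fun l hl => by rw [update_of_ne hl, h l hl]⟩)
    _ σ rfl fun _ _ => rfl
  obtain rfl : τ' = τ := by
    rw [h, eq_update_iff]
    exact ⟨h2, h3⟩
  exact h1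

theorem At.mv {a b : ℕ} (ha : a ≤ k) (hb : b ≤ k) (hab : a ≠ b) :
    At B k fun σ τ => τ = update (update σ b (σ a)) a 0 := by
  refine ((At.clear hb).seq (At.wh ha (At.inc hb))).mono fun σ τ h => ⟨_, rfl, ?_⟩
  obtain ⟨τ', h1, h2, h3, h4⟩ := Wh.loop (j := a) (R := fun σ τ => τ = update σ b (σ b + 1))
    (fun n τ => τ b + n = σ a ∧ ∀ l ≠ a, l ≠ b → τ l = σ l)
    (fun n τ h _ => ⟨_, rfl, by simp [hab], by simp [hab.symm]; omega, fun l hl hl' => by
      rw [update_of_ne hl', update_of_ne hl, h.2 l hl hl']⟩)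
    (σ a) (update σ b 0) (by simp [hab]) ⟨by simp, fun l _ hl => update_of_ne hl ..⟩
  obtain rfl : τ' = τ := by
    rw [h, eq_update_iff]
    refine ⟨h2, fun l hl => ?_⟩
    by_cases e : l = b
    · subst e
      simpa using h3
    · rw [update_of_ne e, h4 l hl e]
  exact h1

/-- The relation `R` is realised in all large layouts. -/
def Im (B : Set ℕ) (R : St → St → Prop) : Prop := ∀ᶠ k in atTop, At B k R

theorem Im.seq (h : Im B R) (h' : Im B S) : Im B (Relation.Comp R S) :=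
  (h.and h').mono fun _ h => h.1.seq h.2

theorem Im.wh (j : ℕ) (h : Im B R) : Im B (Wh j R) :=
  (h.and (eventually_ge_atTop j)).mono fun _ h => h.1.wh h.2

theorem Im.inc (j : ℕ) : Im B fun σ τ => τ = update σ j (σ j + 1) :=
  (eventually_ge_atTop j).mono fun _ h => At.inc h

theorem Im.orc (j : ℕ) : Im B fun σ τ => τ = update σ j (σ j + chi B (σ 0)) :=
  (eventually_ge_atTop j).mono fun _ h => At.orc h

theorem Im.clear (j : ℕ) : Im B fun σ τ => τ = update σ j 0 :=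
  (eventually_ge_atTop j).mono fun _ h => At.clear h

theorem Im.mv {a b : ℕ} (hab : a ≠ b) : Im B fun σ τ => τ = update (update σ b (σ a)) a 0 :=
  ((eventually_ge_atTop a).and (eventually_ge_atTop b)).mono fun _ h => At.mv h.1 h.2 hab

/-- `F` is computed by register programs: wherever the arguments are stored below `m`, a program
puts the value into register `m` and restores the registers below `m`. -/
def C (B : Set ℕ) {ι : Type} (F : (ι → ℕ) →. ℕ) : Prop :=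
  ∀ (ρ : ι → ℕ) (m : ℕ), 0 < m → (∀ i, ρ i < m) → ∃ R, Im B R ∧
    ∀ σ v, v ∈ F (σ ∘ ρ) → ∃ τ, R σ τ ∧ τ m = v ∧ ∀ l < m, τ l = σ l

variable {ι κ : Type} {F : (ι → ℕ) →. ℕ}

theorem C.mono (h : C B F) {F' : (ι → ℕ) →. ℕ} (hF : ∀ x v, v ∈ F' x → v ∈ F x) : C B F' :=
  fun ρ m h0 hρ => let ⟨R, h1, h2⟩ := h ρ m h0 hρ; ⟨R, h1, fun σ v hv => h2 σ v (hF _ _ hv)⟩

theorem C.ren (h : C B F) (e : ι → κ) : C B fun x : κ → ℕ => F (x ∘ e) :=
  fun ρ m h0 hρ => h (ρ ∘ e) m h0 fun _ => hρ _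

theorem C.zero : C B fun _ : ι → ℕ => Part.some 0 := fun ρ m _ _ =>
  ⟨_, Im.clear m, fun σ v hv => ⟨_, rfl, by simpa using (Part.mem_some_iff.1 hv).symm,
    fun l hl => update_of_ne hl.ne ..⟩⟩

theorem C.succ (h : C B F) : C B fun x => (F x).map (· + 1) := by
  intro ρ m h0 hρ
  obtain ⟨R, h1, h2⟩ := h ρ m h0 hρ
  refine ⟨_, h1.seq (Im.inc m), fun σ v hv => ?_⟩
  obtain ⟨w, hw, rfl⟩ := (Part.mem_map_iff _).1 hv
  obtain ⟨τ, h3, h4, h5⟩ := h2 σ w hw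
  exact ⟨_, ⟨τ, h3, rfl⟩, by simp [h4], fun l hl => by rw [update_of_ne hl.ne, h5 l hl]⟩

theorem C.var (i : ι) : C B fun x : ι → ℕ => Part.some (x i) := by
  intro ρ m h0 hρ
  have hi := hρ i
  have a1 : ρ i ≠ m + 1 := by omega
  have a2 : ρ i ≠ m := hi.ne
  refine ⟨_, (Im.clear m).seq ((Im.clear (m + 1)).seq (((Im.inc m).seq (Im.inc (m + 1))).wh (ρ i)
    |>.seq (Im.mv (a := m + 1) (b := ρ i) (by omega)))), fun σ v hv => ?_⟩
  obtain rfl : v = σ (ρ i) := Part.mem_some_iff.1 hv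
  obtain ⟨τ, h1, h2, h3, h4, h5⟩ := Wh.loop (j := ρ i)
    (R := Relation.Comp (fun σ τ => τ = update σ m (σ m + 1))
      fun σ τ => τ = update σ (m + 1) (σ (m + 1) + 1))
    (fun n τ => τ m + n = σ (ρ i) ∧ τ (m + 1) + n = σ (ρ i) ∧ ∀ l < m, l ≠ ρ i → τ l = σ l)
    (fun n τ h _ => ⟨_, ⟨_, rfl, rfl⟩, by simp [a1, a2],
      by simp [a2.symm]; omega, by simp [a1.symm]; omega, fun l hl hl' => by
      rw [update_of_ne (by omega), update_of_ne hl.ne, update_of_ne hl', h.2.2 l hl hl']⟩)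
    (σ (ρ i)) (update (update σ m 0) (m + 1) 0) (by simp [a1, a2])
    ⟨by simp, by simp, fun l hl _ => by rw [update_of_ne (by omega), update_of_ne hl.ne]⟩
  refine ⟨_, ⟨_, rfl, _, rfl, τ, h1, rfl⟩, by simpa [hi.ne'] using h3, fun l hl => ?_⟩
  rw [update_of_ne (by omega)]
  by_cases e : l = ρ i
  · subst e
    simpa using h4
  · rw [update_of_ne e, h5 l hl e]

theorem C.orc (h : C B F) : C B fun x => (F x).map (chi B) := by
  intro ρ m h0 hρ
  obtain ⟨R, h1, h2⟩ := h ρ m h0 hρ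
  refine ⟨_, h1.seq ((Im.mv (a := 0) (b := m + 1) (by omega)).seq ((Im.mv h0.ne').seq
    ((Im.orc m).seq (Im.mv (a := m + 1) (b := 0) (by omega))))), fun σ v hv => ?_⟩
  obtain ⟨w, hw, rfl⟩ := (Part.mem_map_iff _).1 hv
  obtain ⟨τ, h3, h4, h5⟩ := h2 σ w hw
  refine ⟨_, ⟨τ, h3, _, rfl, _, rfl, _, rfl, rfl⟩, by simp [h0.ne, h0.ne', h4], fun l hl => ?_⟩
  rw [update_of_ne (by omega)]
  by_cases e : l = 0
  · subst e
    simp [h5 0 hl]
  · have a1 : l ≠ m + 1 := by omega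
    simp [e, hl.ne, a1, h5 l hl]

theorem C.lett (h : C B F) {F' : (Option ι → ℕ) →. ℕ} (h' : C B F') :
    C B fun x => (F x).bind fun v => F' fun o => o.elim v x := by
  intro ρ m h0 hρ
  obtain ⟨R, h1, h2⟩ := h ρ m h0 hρ
  obtain ⟨S, h3, h4⟩ := h' (fun o => o.elim m ρ) (m + 1) (by omega) (by
    rintro (_ | i)
    · simp
    · exact (hρ i).trans (by omega))
  refine ⟨_, h1.seq (h3.seq (Im.mv (a := m + 1) (b := m) (by omega))), fun σ v hv => ?_⟩
  obtain ⟨w, hw, hv⟩ := Part.mem_bind_iff.1 hv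
  obtain ⟨τ, h5, h6, h7⟩ := h2 σ w hw
  obtain ⟨τ', h8, h9, h10⟩ := h4 τ v (by
    convert hv using 2
    funext o
    rcases o with _ | i
    · exact h6
    · exact h7 _ (hρ i))
  exact ⟨_, ⟨τ, h5, τ', h8, rfl⟩, by simp [h9], fun l hl => by
    rw [update_of_ne (by omega), update_of_ne hl.ne, h10 l (by omega), h7 l hl]⟩

end Vale.Agent.P327T
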