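import Vale.Agent.P327T.Prog

/-! Primitive recursion and minimisation by register programs. -/

namespace Vale.Agent.P327T

open Function

variable {B : Set ℕ} {ι : Type} {F : (ι → ℕ) →. ℕ}

/-- Primitive recursion with values in `Part ℕ`. -/
def precP (a : Part ℕ) (h : ℕ → ℕ → Part ℕ) (n : ℕ) : Part ℕ :=
  Nat.rec a (fun y IH => IH.bind fun v => h y v) n

theorem precP_succ (a : Part ℕ) (h : ℕ → ℕ → Part ℕ) (n : ℕ) :
    precP a h (n + 1) = (precP a h n).bind fun v => h n v := rfl

theorem precP_dom {a : Part ℕ} {h : ℕ → ℕ → Part ℕ} {y N : ℕ} (hy : y ≤ N) :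
    ∀ v, v ∈ precP a h N → ∃ w, w ∈ precP a h y := by
  induction hy with
  | refl => exact fun v hv => ⟨v, hv⟩
  | step _ ih =>
    intro v hv
    obtain ⟨w, hw, -⟩ := Part.mem_bind_iff.1 hv
    exact ih w hw

theorem C.prec (h : C B F) {F' : (Option (Option ι) → ℕ) →. ℕ} (h' : C B F') (i : ι) :
    C B fun x => precP (F x) (fun y v => F' fun o => o.elim v fun o' => o'.elim y x) (x i) := by
  intro ρ m h0 hρ
  obtain ⟨R, h1, h2⟩ := h ρ m h0 hρ
  obtain ⟨V, h3, h4⟩ := C.var (B := B) i ρ (m + 1) (by omega) fun i => (hρ i).trans (by omega)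
  obtain ⟨S, h5, h6⟩ := h' (fun o => o.elim m fun o' => o'.elim (m + 2) ρ) (m + 3) (by omega) (by
    rintro (_ | _ | i)
    · simp
    · simp
    · exact (hρ i).trans (by omega))
  refine ⟨_, h1.seq (h3.seq ((Im.clear (m + 2)).seq ((h5.seq ((Im.mv (a := m + 3) (b := m)
    (by omega)).seq (Im.inc (m + 2)))).wh (m + 1)))), fun σ v hv => ?_⟩
  obtain ⟨w, hw⟩ := precP_dom (Nat.zero_le _) v hv
  obtain ⟨τ, h7, h8, h9⟩ := h2 σ w hw
  obtain ⟨τ', h10, h11, h12⟩ := h4 τ _ (Part.mem_some _)
  obtain ⟨τ'', h13, -, h14, h15, h16⟩ := Wh.loop (j := m + 1) (R := Relation.Comp S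
      (Relation.Comp (fun σ τ => τ = update (update σ m (σ (m + 3))) (m + 3) 0)
        fun σ τ => τ = update σ (m + 2) (σ (m + 2) + 1)))
    (fun n τ => τ (m + 2) + n = σ (ρ i) ∧ τ m ∈ precP (F (σ ∘ ρ))
      (fun y v => F' fun o => o.elim v fun o' => o'.elim y (σ ∘ ρ)) (τ (m + 2)) ∧
      ∀ l < m, τ l = σ l)
    (fun n τ ⟨a1, a2, a3⟩ a4 => by
      obtain ⟨u, hu⟩ := precP_dom (y := τ (m + 2) + 1) (by simp only [comp_apply]; omega) v hv
      have hu' := hu
      rw [precP_succ] at hu'
      obtain ⟨u', b1, b2⟩ := Part.mem_bind_iff.1 hu'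
      obtain rfl := Part.mem_unique a2 b1
      obtain ⟨τ', c1, c2, c3⟩ := h6 (update τ (m + 1) n) u (by
        convert b2 using 2
        funext o
        rcases o with _ | _ | i
        · simp
        · simp
        · have := hρ i
          simp only [comp_apply, Option.elim_some]
          rw [update_of_ne (by omega), a3 _ this])
      have d1 : τ' (m + 2) = τ (m + 2) := by simpa using c3 (m + 2) (by omega)
      refine ⟨_, ⟨τ', c1, _, rfl, rfl⟩, by simpa using c3 (m + 1) (by omega), ?_, ?_,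
        fun l hl => ?_⟩
      · simp [d1]
        omega
      · simpa [d1, c2] using hu
      · rw [update_of_ne (by omega), update_of_ne (by omega), update_of_ne hl.ne,
          c3 l (by omega), update_of_ne (by omega), a3 l hl])
    (σ (ρ i)) (update τ' (m + 2) 0) (by simp [h11, h9 _ (hρ i)])
    ⟨by simp, by simpa [h12 m (by omega), h8] using hw, fun l hl => by
      rw [update_of_ne (by omega), h12 l (by omega), h9 l hl]⟩
  refine ⟨τ'', ⟨τ, h7, τ', h10, _, rfl, h13⟩, ?_, h16⟩
  rw [add_zero] at h14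
  rw [h14] at h15
  exact Part.mem_unique h15 hv

theorem C.mu {F' : (Option ι → ℕ) →. ℕ} (h' : C B F') :
    C B fun x => Nat.rfind fun n => (F' fun o => o.elim n x).map fun m => decide (m = 0) := by
  intro ρ m h0 hρ
  obtain ⟨S, h1, h2⟩ := h' (fun o => o.elim m ρ) (m + 1) (by omega) (by
    rintro (_ | i)
    · simp
    · exact (hρ i).trans (by omega))
  refine ⟨_, (Im.clear m).seq (h1.seq (((Im.inc m).seq h1).wh (m + 1))), fun σ v hv => ?_⟩
  obtain ⟨h3, h4⟩ := Nat.mem_rfind.1 hv
  have h5 : ∀ n ≤ v, ∃ w ∈ F' fun o => o.elim n (σ ∘ ρ), (w = 0 ↔ n = v) := by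
    intro n hn
    rcases hn.lt_or_eq with hn | rfl
    · obtain ⟨w, a1, a2⟩ := (Part.mem_map_iff _).1 (h4 hn)
      exact ⟨w, a1, by simpa [hn.ne] using a2⟩
    · obtain ⟨w, a1, a2⟩ := (Part.mem_map_iff _).1 h3
      exact ⟨w, a1, by simpa using a2⟩
  have h6 : ∀ τ : St, τ m ≤ v → (∀ l < m, τ l = σ l) → ∃ τ', S τ τ' ∧ τ' m = τ m ∧
      (τ' (m + 1) = 0 ↔ τ m = v) ∧ ∀ l < m, τ' l = σ l := by
    intro τ a1 a2
    obtain ⟨w, a3, a4⟩ := h5 _ a1
    obtain ⟨τ', b1, b2, b3⟩ := h2 τ w (by
      convert a3 using 2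
      funext o
      rcases o with _ | i
      · rfl
      · exact a2 _ (hρ i))
    exact ⟨τ', b1, b3 m (by omega), b2 ▸ a4, fun l hl => by rw [b3 l (by omega), a2 l hl]⟩
  have h7 : ∀ d (τ : St), τ m + d = v → (τ (m + 1) = 0 ↔ τ m = v) → (∀ l < m, τ l = σ l) →
      ∃ τ', Wh (m + 1) (Relation.Comp (fun σ τ => τ = update σ m (σ m + 1)) S) τ τ' ∧
        τ' m = v ∧ ∀ l < m, τ' l = σ l := by
    intro d
    induction d with
    | zero => exact fun τ a1 a2 a3 => ⟨τ, .zero τ (a2.2 a1), a1, a3⟩
    | succ d ih =>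
      intro τ a1 a2 a3
      obtain ⟨n, hn⟩ := Nat.exists_eq_succ_of_ne_zero (mt a2.1 (by omega))
      obtain ⟨τ', b1, b2, b3, b4⟩ := h6 (update (update τ (m + 1) n) m (τ m + 1))
        (by simp; omega) fun l hl => by
          rw [update_of_ne hl.ne, update_of_ne (by omega), a3 l hl]
      rw [update_self] at b2 b3
      obtain ⟨τ'', c1, c2⟩ := ih τ' (by omega) (b2 ▸ b3) b4
      exact ⟨τ'', .succ τ n τ' τ'' hn ⟨_, by simp, b1⟩ c1, c2⟩
  obtain ⟨τ, a1, a2, a3, a4⟩ := h6 (update σ m 0) (by simp) fun l hl => update_of_ne hl.ne ..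
  rw [update_self] at a2 a3
  obtain ⟨τ', b1, b2⟩ := h7 v τ (by omega) (a2 ▸ a3) a4
  exact ⟨τ', ⟨_, rfl, τ, a1, b1⟩, b2⟩

/-- Total functions computed by register programs. -/
def T (B : Set ℕ) (f : (ι → ℕ) → ℕ) : Prop := C B fun x => Part.some (f x)

/-- Binary total functions computed by register programs. -/
def T₂ (B : Set ℕ) (g : ℕ → ℕ → ℕ) : Prop := T B fun x : Bool → ℕ => g (x false) (x true)

/-- Unary functions computed by register programs. -/
def U (B : Set ℕ) (f : ℕ →. ℕ) : Prop := C B fun x : Unit → ℕ => f (x ())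

variable {f f' : (ι → ℕ) → ℕ}

theorem T.of_eq (h : T B f) (e : ∀ x, f x = f' x) : T B f' := (funext e : f = f') ▸ h

theorem T.zero : T B fun _ : ι → ℕ => 0 := C.zero

theorem T.var (i : ι) : T B fun x : ι → ℕ => x i := C.var i

theorem T.succ (h : T B f) : T B fun x => f x + 1 := (C.succ h).mono fun _ _ hv => by simpa using hv

theorem U.app {g : ℕ →. ℕ} (hg : U B g) (h : C B F) : C B fun x => (F x).bind g :=
  h.lett (C.ren hg fun _ => none)

theorem C.bin {g : ℕ → ℕ → ℕ} (hg : T₂ B g) {F' : (ι → ℕ) →. ℕ} (h : C B F) (h' : C B F') :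
    C B fun x => (F x).bind fun a => (F' x).bind fun b => Part.some (g a b) :=
  h.lett ((h'.ren some).lett (C.ren (F := fun x : Bool → ℕ => Part.some (g (x false) (x true))) hg
    fun b => cond b none (some none)))

theorem T.bin {g : ℕ → ℕ → ℕ} (hg : T₂ B g) (h : T B f) (h' : T B f') :
    T B fun x => g (f x) (f' x) :=
  (C.bin hg h h').mono fun _ _ hv => by simpa using hv

theorem T.prec (h : T B f) {g : (Option (Option ι) → ℕ) → ℕ} (h' : T B g) (i : ι) :
    T B fun x => Nat.rec (f x) (fun y v => g fun o => o.elim v fun o' => o'.elim y x) (x i) := by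
  refine (C.prec h h' i).mono fun x v hv => ?_
  rw [Part.mem_some_iff.1 hv]
  beta_reduce
  induction x i with
  | zero => exact Part.mem_some _
  | succ n ih => exact Part.mem_bind_iff.2 ⟨_, ih, Part.mem_some _⟩

theorem T.add (h : T B f) (h' : T B f') : T B fun x => f x + f' x := by
  refine T.bin (g := fun a b => a + b) (((T.var false).prec (T.var none).succ true).of_eq
    fun x => ?_) h h'
  induction x true with
  | zero => rfl
  | succ n ih => exact congrArg (· + 1) ih

theorem T.mul (h : T B f) (h' : T B f') : T B fun x => f x * f' x := by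
  refine T.bin (g := fun a b => a * b) ((T.zero.prec ((T.var none).add
    (T.var (some (some false)))) true).of_eq fun x => ?_) h h'
  induction x true with
  | zero => rfl
  | succ n ih => exact congrArg (· + x false) ih

theorem T.pred (h : T B f) : T B fun x => f x - 1 := by
  refine T.bin (g := fun a _ => a - 1) ((T.zero.prec (T.var (some none)) false).of_eq
    fun x => ?_) h h
  cases x false <;> rfl

theorem T.sub (h : T B f) (h' : T B f') : T B fun x => f x - f' x := by
  refine T.bin (g := fun a b => a - b) (((T.var false).prec (T.var none).pred true).of_eq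
    fun x => ?_) h h'
  induction x true with
  | zero => rfl
  | succ n ih => exact congrArg (· - 1) ih

theorem T.ite {c : (ι → ℕ) → ℕ} (hc : T B c) (h : T B f) (h' : T B f') :
    T B fun x => if c x = 0 then f x else f' x := by
  refine (((T.zero.succ.sub hc).mul h).add
    ((T.zero.succ.sub (T.zero.succ.sub hc)).mul h')).of_eq fun x => ?_
  cases c x <;> simp

theorem T₂.pair : T₂ B Nat.pair := by
  have a : T B fun x : Bool → ℕ => x false := T.var _
  have b : T B fun x : Bool → ℕ => x true := T.var _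
  refine ((b.sub a).ite (((a.mul a).add a).add b) ((b.mul b).add a)).of_eq fun x => ?_
  unfold Nat.pair
  split_ifs <;> first | rfl | omega

theorem T.sqrt (i : ι) : T B fun x => Nat.sqrt (x i) := by
  have a : T B fun x : Option ι → ℕ => x none + 1 := (T.var _).succ
  refine (C.mu ((T.var (some i)).succ.sub (a.mul a))).mono fun x v hv => ?_
  rw [Part.mem_some_iff.1 hv]
  refine Nat.mem_rfind.2 ⟨?_, fun {m} hm => ?_⟩
  · have := Nat.lt_succ_sqrt (x i)
    simp only [Option.elim_some, Option.elim_none, Part.map_some, Part.mem_some_iff,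
      true_eq_decide_iff]
    simp only [Nat.succ_eq_add_one] at this
    omega
  · have := Nat.le_sqrt.1 (Nat.succ_le_of_lt hm)
    simp only [Option.elim_some, Option.elim_none, Part.map_some, Part.mem_some_iff,
      false_eq_decide_iff]
    simp only [Nat.succ_eq_add_one] at this
    omega

theorem T.left (i : ι) : T B fun x => (Nat.unpair (x i)).1 := by
  have s := T.sqrt (B := B) i
  have r := (T.var i).sub (s.mul s)
  refine ((s.sub r).ite s r).of_eq fun x => ?_
  simp only [Nat.unpair]
  split_ifs <;> first | rfl | omega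

theorem T.right (i : ι) : T B fun x => (Nat.unpair (x i)).2 := by
  have s := T.sqrt (B := B) i
  have r := (T.var i).sub (s.mul s)
  refine ((s.sub r).ite (r.sub s) s).of_eq fun x => ?_
  simp only [Nat.unpair]
  split_ifs <;> first | rfl | omega

end Vale.Agent.P327T
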