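import Vale.Agent.P327T.G

/-! Registers on the work tape and the machines for the basic register operations. -/

namespace Vale.Agent.P327T

open Function

/-- Cell number `i` of register `j`, when registers `0, …, k` are in use. -/
def cell (k j i : ℕ) : ℤ := if j = 0 then i else -((k * i + j : ℕ) : ℤ)

/-- The distance between consecutive cells of register `j`. -/
def stride (k j : ℕ) : ℤ := if j = 0 then 1 else -(k : ℤ)

theorem cell_succ (k j i : ℕ) : cell k j (i + 1) = cell k j i + stride k j := by
  unfold cell stride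
  split_ifs <;> push_cast <;> ring

theorem cell_inj {k j j' i i' : ℕ} (hj : j ≤ k) (hj' : j' ≤ k) (h : cell k j i = cell k j' i') :
    j = j' ∧ i = i' := by
  unfold cell at h
  split_ifs at h with h1 h2 h2
  · omega
  · omega
  · omega
  · have h3 : k * i + j = k * i' + j' := by omega
    have : i = i' := by
      rcases lt_trichotomy i i' with h4 | h4 | h4
      · have := Nat.mul_le_mul_left k (Nat.succ_le_of_lt h4)
        rw [Nat.mul_succ] at this
        omega
      · exact h4
      · have := Nat.mul_le_mul_left k (Nat.succ_le_of_lt h4)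
        rw [Nat.mul_succ] at this
        omega
    subst this
    omega

open Classical in
/-- The tape holding the register contents `σ` in unary. -/
noncomputable def tp (k : ℕ) (σ : ℕ → ℕ) : ℤ → Bool :=
  fun z => decide (∃ j ≤ k, ∃ i < σ j, z = cell k j i)

theorem tp_cell {k j : ℕ} (hj : j ≤ k) (σ : ℕ → ℕ) (i : ℕ) :
    tp k σ (cell k j i) = decide (i < σ j) := by
  unfold tp
  apply decide_eq_decide.2
  constructor
  · rintro ⟨j', hj', i', hi', h⟩
    obtain ⟨rfl, rfl⟩ := cell_inj hj hj' h
    exact hi'
  · exact fun h => ⟨j, hj, i, h, rfl⟩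

theorem tp_inc {k j : ℕ} (hj : j ≤ k) (σ : ℕ → ℕ) :
    update (tp k σ) (cell k j (σ j)) true = tp k (update σ j (σ j + 1)) := by
  funext z
  by_cases hz : z = cell k j (σ j)
  · subst hz
    rw [update_self, tp_cell hj, update_self]
    simp
  · rw [update_of_ne hz]
    unfold tp
    apply decide_eq_decide.2
    constructor
    · rintro ⟨j', hj', i', hi', h⟩
      refine ⟨j', hj', i', ?_, h⟩
      by_cases e : j' = j
      · subst e
        rw [update_self]
        omega
      · rwa [update_of_ne e]
    · rintro ⟨j', hj', i', hi', h⟩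
      refine ⟨j', hj', i', ?_, h⟩
      by_cases e : j' = j
      · subst e
        rw [update_self] at hi'
        have : i' ≠ σ j' := fun e => hz (by rw [h, e])
        omega
      · rwa [update_of_ne e] at hi'

theorem tp_dec {k j n : ℕ} (hj : j ≤ k) {σ : ℕ → ℕ} (h : σ j = n + 1) :
    update (tp k σ) (cell k j n) false = tp k (update σ j n) := by
  have h1 := tp_inc hj (update σ j n)
  rw [update_self, update_idem, ← h, update_eq_self] at h1
  rw [← h1, update_idem]
  apply update_eq_self_iff.2
  rw [tp_cell hj, update_self]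
  simp

variable {B : Set ℕ} {E : Type}

/-- Leave through `e` after a jump by `d`. -/
def G.jump (e : E) (d : ℤ) : G E := G.one fun _ a => (e, a, d)

theorem G.ex_jump (e : E) (d : ℤ) (t : ℤ → Bool) (p : ℤ) {p' : ℤ} (h : p + d = p') :
    (G.jump e d).Ex B (t, p) e (t, p') :=
  G.ex_one _ _ rfl (by simp [act, h])

/-- Print a symbol. -/
def G.write (b : Bool) : G Unit := G.one fun _ _ => ((), b, 0)

theorem G.ex_write (b : Bool) (t : ℤ → Bool) (p : ℤ) :
    (G.write b).Ex B (t, p) () (update t p b, p) :=
  G.ex_one _ _ rfl (by simp [act])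

/-- Read the work tape. -/
def G.rd : G Bool := G.one fun _ a => (a, a, 0)

theorem G.ex_rd (t : ℤ → Bool) (p : ℤ) {b : Bool} (h : t p = b) : G.rd.Ex B (t, p) b (t, p) :=
  G.ex_one _ _ h (by simp [act])

/-- Read the oracle tape. -/
def G.rdO : G Bool := G.one fun o a => (o.getD false, a, 0)

theorem G.ex_rdO (t : ℤ → Bool) (p : ℤ) {b : Bool} (h : (oracleTape B p).getD false = b) :
    G.rdO.Ex B (t, p) b (t, p) :=
  G.ex_one _ _ h (by simp [act])

/-- Jump by `w` until a blank is read. -/
def G.seek (w : ℤ) : G Unit :=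
  G.loop (G.one fun _ a => if a then (none, a, w) else (some (), a, 0))

theorem G.ex_seek {k j : ℕ} (hj : j ≤ k) (σ : ℕ → ℕ) : ∀ d i, i + d = σ j →
    (G.seek (stride k j)).Ex B (tp k σ, cell k j i) () (tp k σ, cell k j (σ j)) := by
  intro d
  induction d with
  | zero =>
    intro i hi
    obtain rfl : i = σ j := by omega
    refine G.ex_loop_done (G.ex_one _ _ ?_ ?_) <;> simp [tp_cell hj, act]
  | succ d ih =>
    intro i hi
    have h1 : tp k σ (cell k j i) = true := by
      rw [tp_cell hj]
      simp only [decide_eq_true_eq]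
      omega
    refine G.ex_loop_again (G.ex_one _ _ ?_ ?_) (ih (i + 1) (by omega))
    · simp [h1]
    · simp only [h1, if_true, act, cell_succ]
      rw [← h1, update_eq_self]

/-- Go back to cell 0. -/
def G.home : G Unit :=
  G.bind (G.loop (G.one fun o a => if o = none then (none, a, 1) else (some (), a, 0)))
    fun _ => G.loop (G.one fun o a => if o = none then (some (), a, 1) else (none, a, -1))

theorem G.ex_home (t : ℤ → Bool) (p : ℤ) : G.home.Ex B (t, p) () (t, 0) := by
  have h1 : ∀ (n : ℕ) (p : ℤ), (-p).toNat = n → (G.loop (G.one fun o a =>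
      if o = none then (none, a, 1) else (some (), a, 0))).Ex B (t, p) () (t, max p 0) := by
    intro n
    induction n with
    | zero =>
      intro p hp
      have h0 : 0 ≤ p := by omega
      refine G.ex_loop_done (G.ex_one _ _ ?_ ?_) <;> simp [oracleTape, h0, act]
    | succ n ih =>
      intro p hp
      have h0 : ¬ 0 ≤ p := by omega
      have h2 : max p 0 = max (p + 1) 0 := by omega
      rw [h2]
      refine G.ex_loop_again (G.ex_one _ _ ?_ ?_) (ih (p + 1) (by omega)) <;>
        simp [oracleTape, h0, act]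
  have h2 : ∀ (n : ℕ) (p : ℤ), p + 1 = n → (G.loop (G.one fun o a =>
      if o = none then (some (), a, 1) else (none, a, -1))).Ex B (t, p) () (t, 0) := by
    intro n
    induction n with
    | zero =>
      intro p hp
      obtain rfl : p = -1 := by omega
      refine G.ex_loop_done (G.ex_one _ _ ?_ ?_) <;> simp [oracleTape, act]
    | succ n ih =>
      intro p hp
      have h0 : 0 ≤ p := by omega
      refine G.ex_loop_again (G.ex_one _ _ ?_ ?_) (ih (p + -1) (by omega)) <;>
        simp [oracleTape, h0, act]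
  exact G.ex_bind (h1 _ p rfl) (h2 (max p 0 + 1).toNat _ (by omega))

/-- Increment register `j`. -/
def G.inc (k j : ℕ) : G Unit :=
  (G.jump () (cell k j 0)).bind fun _ => (G.seek (stride k j)).bind fun _ =>
    (G.write true).bind fun _ => G.home

theorem G.ex_inc {k j : ℕ} (hj : j ≤ k) (σ : ℕ → ℕ) :
    (G.inc k j).Ex B (tp k σ, 0) () (tp k (update σ j (σ j + 1)), 0) := by
  rw [← tp_inc hj]
  exact G.ex_bind (G.ex_jump _ _ _ _ (zero_add _)) (G.ex_bind (G.ex_seek hj σ _ 0 (zero_add _))
    (G.ex_bind (G.ex_write _ _ _) (G.ex_home _ _)))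

/-- Test register `j` for zero, and decrement it if it is positive. -/
def G.dec (k j : ℕ) : G Bool :=
  (G.jump () (cell k j 0)).bind fun _ => G.rd.bind fun a => cond a
    ((G.seek (stride k j)).bind fun _ => (G.jump () (-stride k j)).bind fun _ =>
      (G.write false).bind fun _ => G.home.bind fun _ => G.jump true 0)
    (G.home.bind fun _ => G.jump false 0)

theorem G.ex_dec_zero {k j : ℕ} (hj : j ≤ k) {σ : ℕ → ℕ} (h : σ j = 0) :
    (G.dec k j).Ex B (tp k σ, 0) false (tp k σ, 0) :=
  G.ex_bind (G.ex_jump _ _ _ _ (zero_add _)) (G.ex_bind (e := false)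
    (G.ex_rd _ _ (by simp [tp_cell hj, h]))
    (G.ex_bind (G.ex_home _ _) (G.ex_jump _ _ _ _ (zero_add _))))

theorem G.ex_dec_succ {k j n : ℕ} (hj : j ≤ k) {σ : ℕ → ℕ} (h : σ j = n + 1) :
    (G.dec k j).Ex B (tp k σ, 0) true (tp k (update σ j n), 0) := by
  rw [← tp_dec hj h]
  have h1 : cell k j (σ j) + -stride k j = cell k j n := by
    rw [h, cell_succ]
    ring
  exact G.ex_bind (G.ex_jump _ _ _ _ (zero_add _)) (G.ex_bind (e := true)
    (G.ex_rd _ _ (by simp [tp_cell hj, h]))
    (G.ex_bind (G.ex_seek hj σ _ 0 (zero_add _)) (G.ex_bind (G.ex_jump _ _ _ _ h1)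
      (G.ex_bind (G.ex_write _ _ _) (G.ex_bind (G.ex_home _ _) (G.ex_jump _ _ _ _ (zero_add _)))))))

/-- Increment register `j` if the content of register 0 lies in the oracle. -/
def G.orc (k j : ℕ) : G Unit :=
  (G.seek (stride k 0)).bind fun _ => G.rdO.bind fun a => cond a
    (G.home.bind fun _ => G.inc k j) G.home

theorem G.ex_orc {k j : ℕ} (hj : j ≤ k) (σ : ℕ → ℕ) :
    (G.orc k j).Ex B (tp k σ, 0) () (tp k (update σ j (σ j + chi B (σ 0))), 0) := by
  have h0 := G.ex_seek (B := B) (Nat.zero_le k) σ _ 0 (zero_add _)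
  have h1 : cell k 0 0 = 0 := by simp [cell]
  rw [h1] at h0
  by_cases h : σ 0 ∈ B
  · have : chi B (σ 0) = 1 := by simp [chi, h]
    rw [this]
    exact G.ex_bind h0 (G.ex_bind (e := true) (G.ex_rdO _ _ (by simp [oracleTape, cell, h]))
      (G.ex_bind (G.ex_home _ _) (G.ex_inc hj σ)))
  · have : chi B (σ 0) = 0 := by simp [chi, h]
    rw [this, add_zero, update_eq_self]
    exact G.ex_bind h0 (G.ex_bind (e := false) (G.ex_rdO _ _ (by simp [oracleTape, cell, h]))
      (G.ex_home _ _))

end Vale.Agent.P327T
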