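import Vale.Agent.P327T.Comp

/-! A set computed by an oracle Turing machine with oracle `B` is recursive in `B`. -/

namespace Vale.Agent.P327T

open Function Vale.Agent.P327

/-- Total functions recursive in `B`. -/
def RB (B : Set ℕ) (f : ℕ → ℕ) : Prop := Nat.RecursiveIn {charFn B} fun n => Part.some (f n)

variable {A B : Set ℕ} {f g : ℕ → ℕ}

theorem RB.of_eq (h : RB B f) (e : ∀ n, f n = g n) : RB B g := (funext e : f = g) ▸ h

theorem RB.prim (h : Primrec f) : RB B f := Nat.Primrec.recursiveIn (Primrec.nat_iff.1 h)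

theorem RB.orc : RB B (chi B) := Nat.RecursiveIn.oracle _ rfl

theorem RB.pair (h : RB B f) (h' : RB B g) : RB B fun n => Nat.pair (f n) (g n) :=
  (Nat.RecursiveIn.pair h h').of_eq fun n => by simp [Seq.seq]

theorem RB.comp (h : RB B f) (h' : RB B g) : RB B fun n => f (g n) :=
  (Nat.RecursiveIn.comp h h').of_eq fun n => by simp

theorem RB.iter (h : RB B f) (h' : RB B g) :
    RB B fun p => f^[p.unpair.2] (g p.unpair.1) := by
  have h1 : RB B fun n => f n.unpair.2.unpair.2 :=
    h.comp (RB.prim (Primrec.snd.comp (Primrec.unpair.comp (Primrec.snd.comp Primrec.unpair))))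
  refine (Nat.RecursiveIn.prec h' h1).of_eq fun p => ?_
  simp only [Nat.unpair_pair]
  induction p.unpair.2 with
  | zero => rfl
  | succ n ih =>
    rw [Function.iterate_succ_apply']
    simp only [ih]
    simp

theorem RB.find (h : RB B f) (H : ∀ a, ∃ n, f (Nat.pair a n) = 0) :
    RB B fun a => Nat.find (H a) := by
  refine (Nat.RecursiveIn.rfind h).of_eq fun a => Part.eq_some_iff.2 (Nat.mem_rfind.2 ⟨?_, ?_⟩)
  · simpa using Nat.find_spec (H a)
  · intro m hm
    simpa using Nat.find_min (H a) hm

/-- Codes of cells. -/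
def enc (z : ℤ) : ℕ := if 0 ≤ z then 2 * z.toNat else 2 * (-z).toNat - 1

/-- The code of the next cell in direction `d`. -/
def mvc (d : Bool) (c : ℕ) : ℕ :=
  if d = true then (if c % 2 = 0 then c + 2 else c - 1 - (if c = 1 then 0 else 1))
  else (if c % 2 = 0 then (if c = 0 then 1 else c - 2) else c + 2)

theorem mvc_enc (d : Bool) (z : ℤ) : mvc d (enc z) = enc (if d then z + 1 else z - 1) := by
  unfold mvc enc
  cases d <;> simp only [Bool.false_eq_true, if_true, if_false] <;> split_ifs <;> omega

theorem enc_inj {z z' : ℤ} (h : enc z = enc z') : z = z' := by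
  unfold enc at h
  split_ifs at h <;> omega

theorem enc_surj (c : ℕ) : ∃ z, enc z = c := by
  by_cases h : c % 2 = 0
  · exact ⟨(c / 2 : ℕ), by unfold enc; split_ifs <;> omega⟩
  · exact ⟨-((c / 2 + 1 : ℕ) : ℤ), by unfold enc; split_ifs <;> omega⟩

theorem primrec_mvc : Primrec₂ mvc := by
  have e : PrimrecPred fun p : Bool × ℕ => p.2 % 2 = 0 :=
    Primrec.eq.comp (Primrec.nat_mod.comp Primrec.snd (Primrec.const 2)) (Primrec.const 0)
  have a := Primrec.nat_add.comp (Primrec.snd (α := Bool)) (Primrec.const 2)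
  exact Primrec.ite (Primrec.eq.comp Primrec.fst (Primrec.const true))
    (Primrec.ite e a (Primrec.nat_sub.comp (Primrec.nat_sub.comp Primrec.snd (Primrec.const 1))
      (Primrec.ite (Primrec.eq.comp Primrec.snd (Primrec.const 1)) (Primrec.const 0)
        (Primrec.const 1))))
    (Primrec.ite e (Primrec.ite (Primrec.eq.comp Primrec.snd (Primrec.const 0)) (Primrec.const 1)
      (Primrec.nat_sub.comp Primrec.snd (Primrec.const 2))) a)

/-- Reading a cell from the list of writes. -/
def rdL (l : List (ℕ × Bool)) (c : ℕ) : Bool := (l.lookup c).getD false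

theorem primrec_rdL : Primrec₂ rdL :=
  Primrec.option_getD.comp (Primrec.listLookup.comp Primrec.snd Primrec.fst) (Primrec.const false)

theorem rdL_cons (c c' : ℕ) (b : Bool) (l : List (ℕ × Bool)) :
    rdL ((c, b) :: l) c' = if c' = c then b else rdL l c' := by
  unfold rdL
  rw [List.lookup_cons]
  by_cases h : c' = c
  · simp [h]
  · simp [h, beq_false_of_ne h]

theorem exists_rdL {l : List (ℕ × Bool)} {c : ℕ} (h : rdL l c = true) : ∃ p ∈ l, p.1 = c := by
  induction l with
  | nil => simp [rdL] at h
  | cons p l ih =>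
    by_cases e : c = p.1
    · exact ⟨p, List.mem_cons_self, e.symm⟩
    · rw [rdL_cons, if_neg e] at h
      obtain ⟨q, hq, h⟩ := ih h
      exact ⟨q, List.mem_cons_of_mem _ hq, h⟩

/-- The list of writes producing `n` ones. -/
def logI (n : ℕ) : List (ℕ × Bool) := Nat.rec [] (fun i l => (2 * i, true) :: l) n

theorem primrec_logI : Primrec logI :=
  Primrec.nat_rec₁ _ (Primrec.list_cons.comp (Primrec.pair
    (Primrec.nat_mul.comp (Primrec.const 2) Primrec.fst) (Primrec.const true)) Primrec.snd).to₂

theorem rdL_logI (n c : ℕ) : rdL (logI n) c = decide (c % 2 = 0 ∧ c < 2 * n) := by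
  induction n with
  | zero => simp [logI, rdL]
  | succ n ih =>
    change rdL ((2 * n, true) :: logI n) c = _
    rw [rdL_cons, ih]
    split_ifs with h
    · symm
      apply decide_eq_true
      omega
    · apply decide_eq_decide.2
      omega

/-- Coded configurations. -/
abbrev CL (Q : Type) := Option Q × List (ℕ × Bool) × ℕ

/-- The coded step, given the oracle bit `b`. -/
def stepL (M : OTM) (b : ℕ) (x : CL M.Q) : CL M.Q :=
  x.1.casesOn x fun q =>
    let r := M.δ q (if x.2.2 % 2 = 0 then some (decide (b = 1)) else none) (rdL x.2.1 x.2.2)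
    (r.1, (x.2.2, r.2.1) :: x.2.1, mvc r.2.2 x.2.2)

theorem primrec_stepL (M : OTM) [Primcodable M.Q] : Primrec₂ (stepL M) := by
  have := M.fin
  have hδ : Primrec fun p : M.Q × Option Bool × Bool => M.δ p.1 p.2.1 p.2.2 := Primrec.dom_finite _
  have hx : Primrec fun p : (ℕ × CL M.Q) × M.Q => p.1.2.2 :=
    Primrec.snd.comp (Primrec.snd.comp Primrec.fst)
  have hc := Primrec.snd.comp hx
  have hl := Primrec.fst.comp hx
  have hb : Primrec fun p : (ℕ × CL M.Q) × M.Q => decide (p.1.1 = 1) :=
    (Primrec.eq.comp (Primrec.fst.comp Primrec.fst) (Primrec.const 1)).decide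
  have hr := hδ.comp (Primrec.snd.pair ((Primrec.ite (Primrec.eq.comp
    (Primrec.nat_mod.comp hc (Primrec.const 2)) (Primrec.const 0))
    (Primrec.option_some.comp hb) (Primrec.const none)).pair (primrec_rdL.comp hl hc)))
  exact Primrec.option_casesOn (Primrec.fst.comp Primrec.snd) Primrec.snd
    ((Primrec.fst.comp hr).pair ((Primrec.list_cons.comp
      (hc.pair (Primrec.fst.comp (Primrec.snd.comp hr))) hl).pair
      (primrec_mvc.comp (Primrec.snd.comp (Primrec.snd.comp hr)) hc))).to₂

/-- The coded configuration `x` represents `c`. -/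
def Rep {Q : Type} (c : Cfg Q) (x : CL Q) : Prop :=
  x.1 = c.state ∧ (∀ z, rdL x.2.1 (enc z) = c.tape z) ∧ x.2.2 = enc c.head

theorem Rep.step (M : OTM) {c : Cfg M.Q} {x : CL M.Q} (h : Rep c x) :
    Rep (M.step B c) (stepL M (chi B (x.2.2 / 2)) x) := by
  obtain ⟨q, l, p⟩ := x
  obtain ⟨q', t, z⟩ := c
  obtain ⟨h1, h2, h3⟩ := h
  simp only at h1 h2 h3
  subst h1 h3
  rcases q with _ | q
  · exact ⟨rfl, h2, rfl⟩
  · have e : (if enc z % 2 = 0 then some (decide (chi B (enc z / 2) = 1)) else none) =
        oracleTape B z := by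
      unfold oracleTape enc chi
      by_cases hz : 0 ≤ z
      · simp [hz]
      · rw [if_neg hz, if_neg hz, if_neg (by omega)]
    simp only [Rep, OTM.step, stepL, e, h2, mvc_enc, true_and, and_true]
    intro z'
    rw [rdL_cons, update_apply, h2]
    by_cases e' : z' = z
    · simp [e']
    · rw [if_neg e', if_neg (mt enc_inj e')]

theorem rec_of_tred (h : TRed A B) : TuringReducible (charFn A) (charFn B) := by
  classical
  obtain ⟨M, hM⟩ := h
  have := M.fin
  have := Fintype.ofFinite M.Q
  letI : Primcodable M.Q := Primcodable.ofEquiv _ (Fintype.equivFin M.Q)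
  let dec : ℕ → CL M.Q := fun c => (Encodable.decode c).getD (none, [], 0)
  have hdec : Primrec dec := Primrec.option_getD.comp Primrec.decode (Primrec.const _)
  have hde : ∀ x, dec (Encodable.encode x) = x := fun x => by
    simp only [dec, Encodable.encodek, Option.getD_some]
  let st : CL M.Q → CL M.Q := fun x => stepL M (chi B (x.2.2 / 2)) x
  let ini : ℕ → CL M.Q := fun n => (some M.start, logI (n + 1), 0)
  have h1 : RB B fun c => Encodable.encode (st (dec c)) :=
    ((RB.prim (Primrec.encode.comp ((primrec_stepL M).comp (Primrec.fst.comp Primrec.unpair)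
      (hdec.comp (Primrec.snd.comp Primrec.unpair))))).comp ((RB.orc.comp (RB.prim
      (Primrec.nat_div.comp (Primrec.snd.comp (Primrec.snd.comp hdec)) (Primrec.const 2)))).pair
      (RB.prim Primrec.id))).of_eq fun c => by simp [st]
  have h2 : RB B fun n => Encodable.encode (ini n) :=
    RB.prim (Primrec.encode.comp ((Primrec.const _).pair
      ((primrec_logI.comp Primrec.succ).pair (Primrec.const _))))
  have h3 : RB B fun p => Encodable.encode (st^[p.unpair.2] (ini p.unpair.1)) := by
    refine (h1.iter h2).of_eq fun p => ?_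
    induction p.unpair.2 with
    | zero => rfl
    | succ n ih => simp only [Function.iterate_succ_apply', ih, hde]
  have h4 : ∀ n s, Rep ((M.step B)^[s] (M.init n)) (st^[s] (ini n)) := by
    intro n s
    induction s with
    | zero =>
      refine ⟨rfl, fun z => ?_, rfl⟩
      change rdL (logI (n + 1)) (enc z) = decide (0 ≤ z ∧ z ≤ n)
      rw [rdL_logI]
      apply decide_eq_decide.2
      unfold enc
      split_ifs <;> omega
    | succ s ih =>
      rw [Function.iterate_succ_apply', Function.iterate_succ_apply']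
      exact ih.step M
  have h5 : RB B fun p => if (st^[p.unpair.2] (ini p.unpair.1)).1 = none then 0 else 1 :=
    ((RB.prim (Primrec.ite (Primrec.eq.comp (Primrec.fst.comp hdec) (Primrec.const none))
      (Primrec.const 0) (Primrec.const 1))).comp h3).of_eq fun p => by simp only [hde]
  have h6 : ∀ a, ∃ n, (fun p : ℕ =>
      if (st^[p.unpair.2] (ini p.unpair.1)).1 = none then 0 else 1) (Nat.pair a n) = 0 := by
    intro a
    obtain ⟨s, hs, -⟩ := hM a
    exact ⟨s, by simp [(h4 a s).1, hs]⟩
  have h7 : PrimrecPred fun l : List (ℕ × Bool) => ∃ p ∈ l, rdL l p.1 = true :=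
    (PrimrecRel.exists_mem_list (R := fun (p : ℕ × Bool) l => rdL l p.1 = true)
      (Primrec.eq.comp (primrec_rdL.comp Primrec.snd (Primrec.fst.comp Primrec.fst))
        (Primrec.const true))).comp Primrec.id Primrec.id
  have h8 := ((RB.prim (Primrec.ite (h7.comp (Primrec.fst.comp (Primrec.snd.comp hdec)))
    (Primrec.const 1) (Primrec.const 0))).comp h3).comp ((RB.prim Primrec.id).pair (h5.find h6))
  refine RecursiveIn.iff_nat.2 (h8.of_eq (g := chi A) fun n => ?_)
  obtain ⟨s, hs, hs'⟩ := hM n
  have h9 := Nat.find_spec (h6 n)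
  have h10 : Nat.find (h6 n) ≤ s := Nat.find_min' _ (by simp [(h4 n s).1, hs])
  generalize Nat.find (h6 n) = s' at h9 h10
  have h11 : ((M.step B)^[s'] (M.init n)).state = none := by simpa [(h4 n s').1] using h9
  have h12 : (M.step B)^[s] (M.init n) = (M.step B)^[s'] (M.init n) := by
    obtain ⟨d, rfl⟩ := Nat.exists_eq_add_of_le' h10
    rw [Function.iterate_add_apply]
    apply Function.iterate_fixed
    simp only [OTM.step, h11]
  rw [h12] at hs'
  simp only [id, Nat.unpair_pair, hde]
  have h13 := (h4 n s').2.1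
  unfold chi at hs' ⊢
  refine if_congr ?_ rfl rfl
  constructor
  · rintro ⟨p, -, hp⟩
    obtain ⟨z, hz⟩ := enc_surj p.1
    by_contra hn
    rw [if_neg hn, Nat.cast_zero, Set.encard_eq_zero] at hs'
    have : z ∈ {z | ((M.step B)^[s'] (M.init n)).tape z = true} := by
      rw [Set.mem_ofPred_eq, ← h13, hz, hp]
    rw [hs'] at this
    exact this
  · intro hn
    rw [if_pos hn, Nat.cast_one, Set.encard_eq_one] at hs'
    obtain ⟨z, hz⟩ := hs'
    have : z ∈ {z | ((M.step B)^[s'] (M.init n)).tape z = true} := by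
      rw [hz]
      rfl
    rw [Set.mem_ofPred_eq, ← h13] at this
    obtain ⟨p, hp, e⟩ := exists_rdL this
    exact ⟨p, hp, e ▸ this⟩

theorem tred_iff : TRed A B ↔ TuringReducible (charFn A) (charFn B) :=
  ⟨rec_of_tred, tred_of_rec⟩

end Vale.Agent.P327T
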